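import Mathlib

/-!
# P219, dimension eight: the closed form certificate

The weight at a centre is `u (r, c) = (490 - 396 c ^ 2) / (550 r ^ 3) + 1 / (2 r)` with `c` the cosine at
the centre. The functions below are multiplied by `550`; the Lipschitz bound of the cosine enters through
`sqrt ((1 - c ^ 2) (1 - d ^ 2)) ≤ 1 - (c ^ 2 + d ^ 2) / 2`, so that everything is polynomial.
-/

noncomputable section

namespace Vale.Agent.P219.CH.Eight

/-- The numerator of the singular part of the weight. -/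
def wnum (c : ℝ) : ℝ := 490 - 396 * c ^ 2

/-- The one-sided integrand. -/
def psi (r c d : ℝ) : ℝ :=
  550 + 275 * (5 + 2 * d ^ 2) / r ^ 2 - 1925 * d / r - 7 * d * wnum c / r ^ 3
    + (wnum c * (3 + 4 * d ^ 2) - 396 * (c * d) * (2 - c ^ 2 - d ^ 2)) / r ^ 4

/-- The symmetrised integrand times `r ^ 4`, in `s = c + d` and `q = c d`. -/
def symQ (r s q : ℝ) : ℝ :=
  1100 * r ^ 4 - 1925 * s * r ^ 3 + 275 * (10 + 2 * (s ^ 2 - 2 * q)) * r ^ 2
    - 3430 * s * r + 2772 * q * s * r + 2940 + 772 * (s ^ 2 - 2 * q) - 3168 * q ^ 2 - 1584 * q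
    + 792 * q * (s ^ 2 - 2 * q)

/-- The same in the two cosines. -/
def sym4 (r c d : ℝ) : ℝ := symQ r (c + d) (c * d)

/-- The coefficient of the marginal terms. -/
def aCoef (t : ℝ) : ℝ := 2816 * t ^ 6 - 11040 * t ^ 4 - 23520 * t ^ 2

/-- The defect of the line inequality, in `s` and `q`. -/
def lineQ (r s q : ℝ) : ℝ :=
  r ^ 3 * symQ r s q + 23520 * q * s + 11040 * q * (s ^ 3 - 3 * q * s)
    - 2816 * q * (s ^ 5 - 5 * q * s ^ 3 + 5 * q ^ 2 * s) - 35280 * q * r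

theorem psi_sym {r : ℝ} (hr : r ≠ 0) (c d : ℝ) :
    r ^ 4 * (psi r c d + psi r d c) = sym4 r c d := by
  unfold psi sym4 symQ wnum
  field_simp
  ring

theorem lineQ_eq (r c d : ℝ) :
    lineQ r (c + d) (c * d) =
      r ^ 3 * sym4 r c d - aCoef c * d - aCoef d * c - 35280 * (c * d) * r := by
  unfold lineQ sym4 aCoef
  ring

theorem aCoef_nonpos {t : ℝ} (h0 : 0 ≤ t) (h1 : t ≤ 1) : aCoef t ≤ 0 := by
  have ht : t ^ 2 ≤ 1 := pow_le_one₀ h0 h1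
  have := mul_le_mul_of_nonneg_left ht (pow_nonneg h0 4)
  have := pow_nonneg h0 4
  have := sq_nonneg t
  unfold aCoef
  nlinarith

/-! ## The symmetrised integrand on the three edges -/

theorem quad_nonneg {a b e x : ℝ} (ha : 0 < a) (h : b ^ 2 ≤ 4 * a * e) :
    0 ≤ a * x ^ 2 + b * x + e := by
  have : 0 ≤ 4 * a * (a * x ^ 2 + b * x + e) := by nlinarith [sq_nonneg (2 * a * x + b)]
  exact nonneg_of_mul_nonneg_right this (by positivity)

theorem sym_edge_zero {r c : ℝ} (hc : 0 ≤ c) (hc1 : c ≤ 1) : 0 ≤ symQ r c 0 := by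
  have hc2 : c ^ 2 ≤ 1 := pow_le_one₀ hc hc1
  have h1 : 0 ≤ 1100 * r ^ 4 - 1925 * c * r ^ 3 + 843 * c ^ 2 * r ^ 2 := by
    nlinarith [mul_nonneg (sq_nonneg r) (sq_nonneg (r - 7 / 8 * c)),
      mul_nonneg (sq_nonneg r) (sq_nonneg c)]
  have h2 : 0 ≤ (2750 - 293 * c ^ 2) * r ^ 2 + -3430 * c * r + (2940 + 772 * c ^ 2) := by
    refine quad_nonneg (by linarith) ?_
    nlinarith [sq_nonneg c]
  unfold symQ
  linarith

theorem sym_edge_one {r c : ℝ} (hc : 0 ≤ c) (hc1 : c ≤ 1) : 0 ≤ symQ r (c + 1) c := by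
  have h1 : 0 ≤ 1100 * r ^ 4 - 1925 * (1 + c) * r ^ 3 + 13475 / 16 * (1 + c) ^ 2 * r ^ 2 := by
    nlinarith [mul_nonneg (sq_nonneg r) (sq_nonneg (r - 7 / 8 * (1 + c)))]
  have h2 : 0 ≤ (3300 + 550 * c ^ 2 - 13475 / 16 * (1 + c) ^ 2) * r ^ 2 +
      (2772 * c ^ 2 - 658 * c - 3430) * r + (3712 - 792 * c - 2396 * c ^ 2 + 792 * c ^ 3) := by
    refine quad_nonneg (by nlinarith) ?_
    nlinarith [mul_nonneg hc (sub_nonneg.2 hc1), mul_nonneg (sq_nonneg c) (sub_nonneg.2 hc1),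
      mul_nonneg (mul_nonneg hc (sub_nonneg.2 hc1)) (sub_nonneg.2 hc1),
      mul_nonneg (pow_nonneg hc 3) (sub_nonneg.2 hc1),
      mul_nonneg (sq_nonneg c) (sq_nonneg (1 - c))]
  unfold symQ
  linear_combination h1 + h2

theorem sym_edge_diag {r t : ℝ} (ht : 0 ≤ t) (ht1 : t ≤ 1) : 0 ≤ symQ r (2 * t) (t ^ 2) := by
  have hx : t ^ 2 ≤ 1 := pow_le_one₀ ht ht1
  have h1 : 0 ≤ 1100 * r ^ 4 - 3850 * t * r ^ 3 + 13475 / 4 * t ^ 2 * r ^ 2 := by
    nlinarith [mul_nonneg (sq_nonneg r) (sq_nonneg (r - 7 / 4 * t))]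
  have h2 : 0 ≤ (2750 - 9075 / 4 * t ^ 2) * r ^ 2 + (5544 * t ^ 2 - 6860) * t * r +
      (2940 - 40 * t ^ 2 - 1584 * t ^ 4) := by
    refine quad_nonneg (by linarith) ?_
    obtain ⟨x, hx0⟩ : ∃ x, x = t ^ 2 := ⟨_, rfl⟩
    rw [mul_pow, show t ^ 4 = (t ^ 2) ^ 2 by ring, ← hx0]
    rw [← hx0] at hx
    have h0 : 0 ≤ x := hx0 ▸ sq_nonneg t
    nlinarith [mul_nonneg h0 (sub_nonneg.2 hx), mul_nonneg (mul_nonneg h0 h0) (sub_nonneg.2 hx),
      mul_nonneg (mul_nonneg h0 (sub_nonneg.2 hx)) (sub_nonneg.2 hx)]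
  unfold symQ
  linear_combination h1 + h2

/-! ## Concavity in the product of the cosines -/

theorem concave_two {f : ℝ → ℝ} {q0 q1 q A B C : ℝ} (hf : ∀ x, f x = A + B * x + C * x ^ 2)
    (hC : C ≤ 0) (h0 : q0 ≤ q) (h1 : q ≤ q1) (hf0 : 0 ≤ f q0) (hf1 : 0 ≤ f q1) : 0 ≤ f q := by
  rcases eq_or_lt_of_le (h0.trans h1) with h | h
  · rwa [show q = q0 by linarith]
  refine nonneg_of_mul_nonneg_right (a := q1 - q0) ?_ (by linarith)
  have e : (q1 - q0) * f q = (q1 - q) * f q0 + (q - q0) * f q1 +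
      -C * ((q - q0) * (q1 - q) * (q1 - q0)) := by rw [hf, hf, hf]; ring
  rw [e]
  have := mul_nonneg (sub_nonneg.2 h1) hf0
  have := mul_nonneg (sub_nonneg.2 h0) hf1
  have := mul_nonneg (neg_nonneg.2 hC)
    (mul_nonneg (mul_nonneg (sub_nonneg.2 h0) (sub_nonneg.2 h1)) (by linarith : 0 ≤ q1 - q0))
  linarith

theorem cosines_mem {c d : ℝ} (hc : 0 ≤ c) (hc1 : c ≤ 1) (hd : 0 ≤ d) (hd1 : d ≤ 1) :
    max 0 (c + d - 1) ≤ c * d ∧ c * d ≤ ((c + d) / 2) ^ 2 :=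
  ⟨max_le (mul_nonneg hc hd) (by nlinarith [mul_nonneg (sub_nonneg.2 hc1) (sub_nonneg.2 hd1)]),
    by nlinarith [sq_nonneg (c - d)]⟩

theorem symQ_low {r s : ℝ} (hs : 0 ≤ s) (hs2 : s ≤ 2) : 0 ≤ symQ r s (max 0 (s - 1)) := by
  rcases le_total s 1 with h | h
  · rw [max_eq_left (by linarith)]; exact sym_edge_zero hs h
  · rw [max_eq_right (by linarith)]
    simpa using sym_edge_one (r := r) (c := s - 1) (by linarith) (by linarith)

theorem symQ_high {r s : ℝ} (hs : 0 ≤ s) (hs2 : s ≤ 2) : 0 ≤ symQ r s ((s / 2) ^ 2) := by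
  simpa [mul_div_cancel₀] using sym_edge_diag (r := r) (t := s / 2) (by linarith) (by linarith)

/-- The symmetrised integrand is nonnegative. -/
theorem sym4_nonneg (r : ℝ) {c d : ℝ} (hc : 0 ≤ c) (hc1 : c ≤ 1) (hd : 0 ≤ d) (hd1 : d ≤ 1) :
    0 ≤ sym4 r c d := by
  obtain ⟨h0, h1⟩ := cosines_mem hc hc1 hd hd1
  obtain ⟨s, hs⟩ : ∃ s, s = c + d := ⟨_, rfl⟩
  rw [sym4, ← hs]
  rw [← hs] at h0 h1
  refine concave_two (f := symQ r s) (A := symQ r s 0)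
    (B := -1100 * r ^ 2 + 2772 * s * r - 1544 - 1584 + 792 * s ^ 2) (C := -4752)
    (fun x => ?_) (by norm_num) h0 h1 (symQ_low (by linarith) (by linarith))
    (symQ_high (by linarith) (by linarith))
  unfold symQ
  ring

/-! ## The line inequality -/

theorem line_diag {r t : ℝ} (hr : 0 ≤ r) (ht : 0 ≤ t) (ht1 : t ≤ 1) :
    0 ≤ lineQ r (2 * t) (t ^ 2) := by
  have hx : t ^ 2 ≤ 1 := pow_le_one₀ ht ht1
  have e : lineQ r (2 * t) (t ^ 2) = (r - 2 * t) ^ 2 * (1100 * r ^ 5 + 550 * r ^ 4 * t +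
      r ^ 3 * (2750 - 1100 * t ^ 2) + r ^ 2 * t * (4140 - 1056 * t ^ 2) +
      r * (2940 + t ^ 2 * (5520 - 1408 * t ^ 2)) + t * (11760 + t ^ 2 * (5520 - 1408 * t ^ 2))) := by
    unfold lineQ symQ
    ring
  rw [e]
  have : 0 ≤ 2750 - 1100 * t ^ 2 := by linarith
  have : 0 ≤ 4140 - 1056 * t ^ 2 := by linarith
  have : 0 ≤ 5520 - 1408 * t ^ 2 := by linarith
  positivity

/-- The constant coefficient on the edge `d = 1`. -/
def edgeA (c : ℝ) : ℝ :=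
  2757 + 8669 * c + 4970 * c ^ 2 - 3494 * c ^ 3 - 2827 * c ^ 4 - 275 * c ^ 5

/-- The mixed coefficient on the edge `d = 1`. -/
def edgeB (c : ℝ) : ℝ :=
  -10066 + 6210 * c + 982 * c ^ 2 + 3710 * c ^ 3 + 264 * c ^ 4 - 1100 * c ^ 5

/-- The square coefficient on the edge `d = 1`. -/
def edgeC (v c : ℝ) : ℝ :=
  17781 + 33777 * c + 25342 * c ^ 2 + 16254 * c ^ 3 + 6633 * c ^ 4 - 275 * c ^ 5
    + v * (22992 + 48856 * c + 44560 * c ^ 2 + 22880 * c ^ 3 + 5500 * c ^ 4)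
    + v ^ 2 * (22695 + 44717 * c + 34397 * c ^ 2 + 12375 * c ^ 3
      + v * (14850 + 23100 * c + 12100 * c ^ 2))
    + v ^ 4 * (5775 + 5775 * c + 1100 * v)

theorem edgeA_ge {c : ℝ} (hc : 0 ≤ c) (hc1 : c ≤ 1) : 2757 ≤ edgeA c := by
  have h2 : c ^ 2 ≤ c := by nlinarith
  have h3 : c ^ 3 ≤ c := by nlinarith [mul_le_mul_of_nonneg_left h2 hc]
  have h4 : c ^ 4 ≤ c := by nlinarith [mul_le_mul_of_nonneg_left h3 hc]
  have h5 : c ^ 5 ≤ c := by nlinarith [mul_le_mul_of_nonneg_left h4 hc]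
  unfold edgeA
  nlinarith [sq_nonneg c]

theorem abs_edgeB_le {c : ℝ} (hc : 0 ≤ c) (hc1 : c ≤ 1) : |edgeB c| ≤ 10066 := by
  have h2 : c ^ 2 ≤ 1 := pow_le_one₀ hc hc1
  have h3 : c ^ 3 ≤ 1 := pow_le_one₀ hc hc1
  have h4 : c ^ 4 ≤ 1 := pow_le_one₀ hc hc1
  have h5 : c ^ 5 ≤ c ^ 3 := pow_le_pow_of_le_one hc hc1 (by norm_num)
  have := pow_nonneg hc 3
  have := pow_nonneg hc 4
  have := pow_nonneg hc 5
  have := sq_nonneg c
  unfold edgeB
  rw [abs_le]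
  constructor <;> linarith

theorem edgeC_ge {v c : ℝ} (hc : 0 ≤ c) (hc1 : c ≤ 1) (hv : -(101 / 1000 + c / 3) ≤ v) :
    15000 ≤ edgeC v c := by
  have h2 := sq_nonneg c
  have h3 := pow_nonneg hc 3
  have h4 := pow_nonneg hc 4
  have hk : 0 ≤ 22992 + 48856 * c + 44560 * c ^ 2 + 22880 * c ^ 3 + 5500 * c ^ 4 := by positivity
  have hbase : 15000 ≤ 17781 + 33777 * c + 25342 * c ^ 2 + 16254 * c ^ 3 + 6633 * c ^ 4
      - 275 * c ^ 5 + -(101 / 1000 + c / 3) *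
        (22992 + 48856 * c + 44560 * c ^ 2 + 22880 * c ^ 3 + 5500 * c ^ 4) := by
    nlinarith [mul_le_mul_of_nonneg_left hc1 h4, mul_le_mul_of_nonneg_left hc1 h3]
  have hlin := mul_le_mul_of_nonneg_right hv hk
  have hq : 0 ≤ 14850 + 23100 * c + 12100 * c ^ 2 := by positivity
  have h6 : 0 ≤ v ^ 2 * (22695 + 44717 * c + 34397 * c ^ 2 + 12375 * c ^ 3
      + v * (14850 + 23100 * c + 12100 * c ^ 2)) := by
    refine mul_nonneg (sq_nonneg v) ?_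
    nlinarith [mul_le_mul_of_nonneg_right (show -(1 / 2 : ℝ) ≤ v by linarith) hq]
  have h7 : 0 ≤ v ^ 4 * (5775 + 5775 * c + 1100 * v) :=
    mul_nonneg (by positivity) (by linarith)
  unfold edgeC
  linarith

theorem line_edge_one {r c : ℝ} (hr : 0 ≤ r) (hc : 0 ≤ c) (hc1 : c ≤ 1) :
    0 ≤ lineQ r (c + 1) c := by
  rcases le_total r (899 / 1000 + 2 / 3 * c) with h | h
  · have e : lineQ r (c + 1) c = r ^ 3 * symQ r (c + 1) c +
        (c * (31744 + 23520 * c - 35280 * r) + c ^ 4 * (11040 - 2816 * c ^ 2)) := by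
      unfold lineQ
      ring
    rw [e]
    have h2 : c ^ 2 ≤ 1 := pow_le_one₀ hc hc1
    exact add_nonneg (mul_nonneg (pow_nonneg hr 3) (sym_edge_one hc hc1))
      (add_nonneg (mul_nonneg hc (by linarith)) (mul_nonneg (by positivity) (by linarith)))
  · obtain ⟨v, hv⟩ : ∃ v, v = r - (1 + c) := ⟨_, rfl⟩
    have e : lineQ r (c + 1) c =
        edgeA c * (c - 1) ^ 2 + edgeB c * (c - 1) * v + edgeC v c * v ^ 2 := by
      rw [hv]
      unfold lineQ symQ edgeA edgeB edgeC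
      ring
    rw [e]
    have hA := edgeA_ge hc hc1
    have hC := edgeC_ge hc hc1 (show -(101 / 1000 + c / 3) ≤ v by rw [hv]; linarith)
    obtain ⟨hB0, hB1⟩ := abs_le.1 (abs_edgeB_le hc hc1)
    have hB : edgeB c ^ 2 ≤ 4 * edgeA c * edgeC v c := by
      have h1 : edgeB c ^ 2 ≤ 10066 ^ 2 := sq_le_sq' hB0 hB1
      have h2 := mul_le_mul hA hC (by norm_num) (le_trans (by norm_num) hA)
      linarith
    have := quad_nonneg (x := c - 1) (b := edgeB c * v) (e := edgeC v c * v ^ 2)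
      (lt_of_lt_of_le (by norm_num) hA) (by
        rw [mul_pow, ← mul_assoc]
        exact mul_le_mul_of_nonneg_right hB (sq_nonneg v))
    linarith

theorem lineQ_low {r s : ℝ} (hr : 0 ≤ r) (hs : 0 ≤ s) (hs2 : s ≤ 2) :
    0 ≤ lineQ r s (max 0 (s - 1)) := by
  rcases le_total s 1 with h | h
  · rw [max_eq_left (by linarith)]
    simpa [lineQ] using mul_nonneg (pow_nonneg hr 3) (sym_edge_zero (r := r) hs h)
  · rw [max_eq_right (by linarith)]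
    simpa using line_edge_one (c := s - 1) hr (by linarith) (by linarith)

theorem lineQ_high {r s : ℝ} (hr : 0 ≤ r) (hs : 0 ≤ s) (hs2 : s ≤ 2) :
    0 ≤ lineQ r s ((s / 2) ^ 2) := by
  simpa [mul_div_cancel₀] using line_diag (t := s / 2) hr (by linarith) (by linarith)

/-- Second differences of the defect in the product are nonpositive. -/
theorem bend {r s m : ℝ} (hr : 0 ≤ r) (hs : 0 ≤ s) (hs2 : s ≤ 2) (hm : max 0 (s - 1) ≤ m) :
    -4752 * r ^ 3 - 33120 * s + 14080 * s ^ 3 - 42240 * m * s ≤ 0 := by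
  have h1 : 14080 * s ^ 2 - 42240 * m ≤ 14080 := by
    rcases le_total s 1 with h | h
    · have := (le_max_left 0 (s - 1)).trans hm
      nlinarith
    · have := (le_max_right 0 (s - 1)).trans hm
      nlinarith [mul_nonneg (sub_nonneg.2 h) (sub_nonneg.2 hs2)]
  have := mul_le_mul_of_nonneg_left h1 hs
  have := pow_nonneg hr 3
  nlinarith

/-- The defect is nonnegative, being concave in the product. -/
theorem lineQ_nonneg {r s q : ℝ} (hr : 0 ≤ r) (hs : 0 ≤ s) (hs2 : s ≤ 2)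
    (h0 : max 0 (s - 1) ≤ q) (h1 : q ≤ (s / 2) ^ 2) : 0 ≤ lineQ r s q := by
  obtain ⟨q0, hq0⟩ : ∃ z, z = max 0 (s - 1) := ⟨_, rfl⟩
  obtain ⟨q1, hq1⟩ : ∃ z, z = (s / 2) ^ 2 := ⟨_, rfl⟩
  rw [← hq0] at h0
  rw [← hq1] at h1
  have f0 : 0 ≤ lineQ r s q0 := hq0 ▸ lineQ_low hr hs hs2
  have f1 : 0 ≤ lineQ r s q1 := hq1 ▸ lineQ_high hr hs hs2
  rcases eq_or_lt_of_le (h0.trans h1) with h | h
  · rwa [show q = q0 by linarith]
  refine nonneg_of_mul_nonneg_right (a := q1 - q0) ?_ (by linarith)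
  have e : (q1 - q0) * lineQ r s q = (q1 - q) * lineQ r s q0 + (q - q0) * lineQ r s q1 +
      -(-4752 * r ^ 3 - 33120 * s + 14080 * s ^ 3 - 42240 * ((q0 + q1 + q) / 3) * s) *
        ((q - q0) * (q1 - q) * (q1 - q0)) := by
    unfold lineQ symQ
    ring
  rw [e]
  have hb := bend hr hs hs2 (m := (q0 + q1 + q) / 3) (by rw [← hq0]; linarith)
  have := mul_nonneg (sub_nonneg.2 h1) f0
  have := mul_nonneg (sub_nonneg.2 h0) f1
  have := mul_nonneg (neg_nonneg.2 hb)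
    (mul_nonneg (mul_nonneg (sub_nonneg.2 h0) (sub_nonneg.2 h1)) (by linarith : 0 ≤ q1 - q0))
  linarith

/-- The line inequality, with equality for `r = 2 c = 2 d`. -/
theorem line_inequality {r c d : ℝ} (hr : 0 ≤ r) (hc : 0 ≤ c) (hc1 : c ≤ 1) (hd : 0 ≤ d)
    (hd1 : d ≤ 1) :
    aCoef c * d + aCoef d * c + 35280 * (c * d) * r ≤ r ^ 3 * sym4 r c d := by
  obtain ⟨h0, h1⟩ := cosines_mem hc hc1 hd hd1
  have := lineQ_nonneg hr (by linarith) (by linarith) h0 h1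
  rw [lineQ_eq] at this
  linarith

/-- The same after the regularisation of the distance. -/
theorem line_regular {r ρ c d : ℝ} (hr : 0 ≤ r) (hρ : r ≤ ρ) (hρ0 : 0 < ρ) (hc : 0 ≤ c)
    (hc1 : c ≤ 1) (hd : 0 ≤ d) (hd1 : d ≤ 1) :
    aCoef c * d + aCoef d * c + 35280 * (c * d) * r * (r / ρ) ^ 6 ≤
      r ^ 7 * (psi ρ c d + psi ρ d c) := by
  obtain ⟨k, hk⟩ : ∃ k, k = (r / ρ) ^ 7 := ⟨_, rfl⟩
  have hk0 : 0 ≤ k := by rw [hk]; positivity
  have hk1 : k ≤ 1 := hk ▸ pow_le_one₀ (div_nonneg hr hρ0.le) ((div_le_one hρ0).2 hρ)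
  have h1 := mul_le_mul_of_nonneg_left (line_inequality hρ0.le hc hc1 hd hd1) hk0
  have hn : aCoef c * d + aCoef d * c ≤ 0 := add_nonpos
    (mul_nonpos_of_nonpos_of_nonneg (aCoef_nonpos hc hc1) hd)
    (mul_nonpos_of_nonpos_of_nonneg (aCoef_nonpos hd hd1) hc)
  have e1 : k * ρ = r * (r / ρ) ^ 6 := by rw [hk]; field_simp
  have e2 : k * (ρ ^ 3 * sym4 ρ c d) = r ^ 7 * (psi ρ c d + psi ρ d c) := by
    rw [hk, ← psi_sym hρ0.ne']
    field_simp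
  have h3 : k * (35280 * (c * d) * ρ) = 35280 * (c * d) * r * (r / ρ) ^ 6 := by
    calc k * (35280 * (c * d) * ρ) = 35280 * (c * d) * (k * ρ) := by ring
      _ = _ := by rw [e1]; ring
  have h4 := mul_le_mul_of_nonpos_right hk1 hn
  linarith

/-! ## The regularised field -/

/-- The regularised bracket at `q = r ^ 2 / ρ ^ 2` is at least its value at `q = 1`, up to `1 - q`.
The left side is `ρ ^ 4` times the row integrand; the loss is at most the multiple `|c| * max d 0`. -/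
theorem regular_bracket {ρ c d q sq : ℝ} (hρ : 0 < ρ) (hc : |c| ≤ 1) (hd : |d| ≤ 1)
    (hq0 : 0 ≤ q) (hq1 : q ≤ 1) (hsq : sq = Real.sqrt q) :
    wnum c * (3 + 4 * d ^ 2) - 396 * (|c| * |d|) * (2 - c ^ 2 - d ^ 2)
        + 275 * (5 + 2 * d ^ 2) * ρ ^ 2 - 7 * ρ * max d 0 * (wnum c + 275 * ρ ^ 2)
        - (if 1 / 2 ≤ ρ then 2772 * (1 - q) * ρ * (|c| * max d 0) else 0) ≤
      7 * (490 - 396 * c ^ 2 * q + 275 * ρ ^ 2)
        + (1 - d ^ 2) * (q * (-1960 + 2376 * c ^ 2 * q - 550 * ρ ^ 2) - 792 * c ^ 2 * q)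
        - 396 * (|c| * |d|) * q * (2 - c ^ 2 - d ^ 2)
        - 7 * ρ * max d 0 * sq * (490 - 396 * c ^ 2 * q + 275 * ρ ^ 2) := by
  have hc2 : c ^ 2 ≤ 1 := by rw [← sq_abs]; exact pow_le_one₀ (abs_nonneg c) hc
  have hd2 : d ^ 2 ≤ 1 := by rw [← sq_abs]; exact pow_le_one₀ (abs_nonneg d) hd
  have hx : 0 ≤ 1 - q := sub_nonneg.2 hq1
  have hsq1 : sq ≤ 1 := hsq ▸ Real.sqrt_le_one.2 hq1
  have hsq0 : 0 ≤ sq := hsq ▸ Real.sqrt_nonneg q
  obtain ⟨e, he⟩ : ∃ e, e = max d 0 := ⟨_, rfl⟩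
  have he0 : 0 ≤ e := he ▸ le_max_right _ _
  have he1 : e ≤ 1 := he ▸ max_le ((le_abs_self d).trans hd) zero_le_one
  rw [← he]
  obtain ⟨X, hX⟩ : ∃ X, X = 7 * (490 - 396 * c ^ 2 * q + 275 * ρ ^ 2)
        + (1 - d ^ 2) * (q * (-1960 + 2376 * c ^ 2 * q - 550 * ρ ^ 2) - 792 * c ^ 2 * q)
        - (wnum c * (3 + 4 * d ^ 2) + 275 * (5 + 2 * d ^ 2) * ρ ^ 2) := ⟨_, rfl⟩
  have h1 : (1 - q) * ((1 - d ^ 2) * (1960 - 3960 * c ^ 2) + 2772 * c ^ 2) ≤ X := by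
    have := mul_nonneg (mul_nonneg hx (sub_nonneg.2 hd2))
      (show 0 ≤ 550 * ρ ^ 2 + 2376 * c ^ 2 * (1 - q) by positivity)
    rw [hX]
    unfold wnum
    linear_combination this
  have h0 : 0 ≤ (1 - q) * ((1 - d ^ 2) * (1960 - 3960 * c ^ 2) + 2772 * c ^ 2) := by
    refine mul_nonneg hx ?_
    nlinarith [mul_nonneg (sub_nonneg.2 hd2) (sub_nonneg.2 hc2), sq_nonneg c, sq_nonneg d]
  have h2 : 396 * (|c| * |d|) * q * (2 - c ^ 2 - d ^ 2) ≤
      396 * (|c| * |d|) * (2 - c ^ 2 - d ^ 2) :=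
    mul_le_mul_of_nonneg_right (mul_le_of_le_one_right (by positivity) hq1) (by linarith)
  have hw : 0 ≤ 490 - 396 * c ^ 2 * q + 275 * ρ ^ 2 := by
    nlinarith [sq_nonneg ρ, mul_le_mul hc2 hq1 hq0 zero_le_one]
  have a1 : 7 * ρ * e * sq * (490 - 396 * c ^ 2 * q + 275 * ρ ^ 2) ≤
      7 * ρ * e * (490 - 396 * c ^ 2 * q + 275 * ρ ^ 2) :=
    mul_le_mul_of_nonneg_right (mul_le_of_le_one_right (by positivity) hsq1) hw
  split_ifs with hρ1
  · have hcc : c ^ 2 ≤ |c| := by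
      rw [← sq_abs, pow_two]
      exact mul_le_of_le_one_left (abs_nonneg c) hc
    have h4 : 7 * ρ * e * (396 * c ^ 2 * (1 - q)) ≤ 7 * ρ * e * (396 * |c| * (1 - q)) :=
      mul_le_mul_of_nonneg_left (mul_le_mul_of_nonneg_right
        (mul_le_mul_of_nonneg_left hcc (by norm_num)) hx) (by positivity)
    unfold wnum at hX ⊢
    linarith
  · have hel : e ≤ |d| := he ▸ max_le (le_abs_self d) (abs_nonneg d)
    have h5 : 2772 * c ^ 2 * ρ * e ≤ (1 - d ^ 2) * (1960 - 3960 * c ^ 2) + 2772 * c ^ 2 := by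
      have h6 : 2772 * c ^ 2 * ρ * e ≤ 2772 * c ^ 2 * (1 / 2) * |d| :=
        mul_le_mul (mul_le_mul_of_nonneg_left (le_of_not_ge hρ1) (by positivity)) hel he0
          (by positivity)
      have hd0 : 0 ≤ |d| := abs_nonneg d
      rw [← sq_abs d] at hd2 ⊢
      nlinarith [mul_nonneg (sq_nonneg c) (sq_nonneg (|d| - 693 / 2000)),
        mul_nonneg (sub_nonneg.2 hc2) (sub_nonneg.2 hd2)]
    have h4 := mul_le_mul_of_nonneg_left h5 hx
    unfold wnum at hX ⊢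
    linarith

end Vale.Agent.P219.CH.Eight
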