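import Vale.Agent.P219.Eight.Weight
import Vale.Agent.P219.Gen.Cosine

/-!
# P219, dimension eight: the certificate
-/

noncomputable section

open MeasureTheory Set Filter Topology Matrix

namespace Vale.Agent.P219.CH.Eight

open Gen Gen.Cosine

theorem integrable_cosine {n : ℕ} [NeZero n] {g : ℝ → ℝ} (hg : Continuous g) :
    Integrable fun v : Fin n → ℝ => Real.exp (-(v ⬝ᵥ v / 2)) *
      {v : Fin n → ℝ | 0 < v 0}.indicator (fun v => g (v 0 / Real.sqrt (v ⬝ᵥ v))) v := by
  have hphi : Integrable fun v : Fin n → ℝ => Real.exp (-(v ⬝ᵥ v / 2)) :=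
    Integrable.of_integral_ne_zero (ne_of_gt (mass_pos (n := n)))
  obtain ⟨B, hB⟩ := (isCompact_Icc (a := (-1 : ℝ)) (b := 1)).bddAbove_image
    (f := fun c => |g c|) hg.abs.continuousOn
  have hdot : Measurable fun v : Fin n → ℝ => v ⬝ᵥ v := by
    simp only [dotProduct]; fun_prop
  refine hphi.mul_bdd (c := B) (((hg.measurable.comp ((measurable_pi_apply 0).div hdot.sqrt)).indicator
    (measurableSet_lt measurable_const (measurable_pi_apply 0))).aestronglyMeasurable)
    (Eventually.of_forall fun v => ?_)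
  have hle : |v 0 / Real.sqrt (v ⬝ᵥ v)| ≤ 1 := by
    rw [abs_div, abs_of_nonneg (Real.sqrt_nonneg _)]
    refine div_le_one_of_le₀ (Real.abs_le_sqrt ?_) (Real.sqrt_nonneg _)
    rw [sq]
    exact Finset.single_le_sum (f := fun i => v i * v i) (fun i _ => mul_self_nonneg _)
      (Finset.mem_univ (0 : Fin n))
  have h0 : 0 ≤ B := (abs_nonneg _).trans (hB ⟨0, ⟨by norm_num, by norm_num⟩, rfl⟩)
  rw [Real.norm_eq_abs]
  by_cases hv : v ∈ {v : Fin n → ℝ | 0 < v 0}
  · rw [Set.indicator_of_mem hv]
    exact hB ⟨_, abs_le.1 hle, rfl⟩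
  · rw [Set.indicator_of_notMem hv, abs_zero]
    exact h0

/-- The mean of the marginal coefficient is the excess of the volume coefficient. -/
theorem value_eight :
    cmean 8 (fun c => -(aCoef c / 550)) = (1764 / 55) / ((8 : ℕ) : ℝ) - 1 := by
  have h2 := axis_two (n := 8)
  have h4 := axis_four (n := 8)
  have h6 := axis_six (n := 8)
  push_cast at h2 h4 h6
  have hm := mass_pos (n := 8)
  have c2 := cmean_pow (n := 8) even_two two_ne_zero
  have c4 := cmean_pow (n := 8) (k := 4) (by decide) (by norm_num)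
  have c6 := cmean_pow (n := 8) (k := 6) (by decide) (by norm_num)
  have e : cmean 8 (fun c => -(aCoef c / 550)) = 23520 / 550 * cmean 8 (fun c => c ^ 2) +
      11040 / 550 * cmean 8 (fun c => c ^ 4) - 2816 / 550 * cmean 8 (fun c => c ^ 6) := by
    have i2 := integrable_cosine (n := 8) (g := fun c => c ^ 2) (by fun_prop)
    have i4 := integrable_cosine (n := 8) (g := fun c => c ^ 4) (by fun_prop)
    have i6 := integrable_cosine (n := 8) (g := fun c => c ^ 6) (by fun_prop)
    have i24 : Integrable fun v : Fin 8 → ℝ =>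
        23520 / 550 * (Real.exp (-(v ⬝ᵥ v / 2)) * {v : Fin 8 → ℝ | 0 < v 0}.indicator
          (fun v => (v 0 / Real.sqrt (v ⬝ᵥ v)) ^ 2) v) +
        11040 / 550 * (Real.exp (-(v ⬝ᵥ v / 2)) * {v : Fin 8 → ℝ | 0 < v 0}.indicator
          (fun v => (v 0 / Real.sqrt (v ⬝ᵥ v)) ^ 4) v) := (i2.const_mul _).add (i4.const_mul _)
    simp only [cmean]
    rw [← mul_div_assoc, ← mul_div_assoc, ← mul_div_assoc, ← add_div, ← sub_div,
      ← integral_const_mul, ← integral_const_mul, ← integral_const_mul,
      ← integral_add (i2.const_mul _) (i4.const_mul _),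
      ← integral_sub i24 (i6.const_mul _)]
    congr 1
    refine integral_congr_ae (Eventually.of_forall fun v => ?_)
    by_cases hv : v ∈ {v : Fin 8 → ℝ | 0 < v 0}
    · simp only [Set.indicator_of_mem hv, aCoef]
      ring
    · simp only [Set.indicator_of_notMem hv]
      ring
  rw [e, c2, c4, c6]
  push_cast
  field_simp
  linarith

/-- The certificate of the sharp constant in dimension eight. -/
theorem cert_eight : Gen.Cert 8 (fun c => aCoef c / 550) (1764 / 55) where
  b_nonneg := by norm_num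
  measurable_a := by unfold aCoef; fun_prop
  a_nonpos := fun c hc => div_nonpos_of_nonpos_of_nonneg (aCoef_nonpos hc.1 hc.2) (by norm_num)
  a_bounded := ⟨100, fun c hc => by
    have h2 : c ^ 2 ≤ 1 := pow_le_one₀ hc.1 hc.2
    have h4 : c ^ 4 ≤ 1 := pow_le_one₀ hc.1 hc.2
    have := pow_nonneg hc.1 6
    unfold aCoef
    linarith⟩
  value := value_eight
  weight := fun _ _ hε hT => weight_cert hε hT

end Vale.Agent.P219.CH.Eight
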