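import Vale.Agent.P219.Eight.Cert
import Vale.Agent.P219.Gen.Defs

/-!
# P219, dimension eight: the regularised weight

`rho2 η p` is `2 p + η ^ 2` for `p ≥ 0`, positive and smooth everywhere.
-/

noncomputable section

open Set Filter Topology

namespace Vale.Agent.P219.CH.Eight

/-- The regularised squared distance as a function of the half squared distance. -/
def rho2 (η p : ℝ) : ℝ := η ^ 2 + 2 * p * Real.smoothTransition (4 * p / η ^ 2 + 2)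

theorem rho2_of_gt {η p : ℝ} (hη : η ≠ 0) (hp : -(η ^ 2 / 4) ≤ p) : rho2 η p = η ^ 2 + 2 * p := by
  have h2 : 0 < η ^ 2 := by positivity
  rw [rho2, Real.smoothTransition.one_of_one_le, mul_one]
  have : -1 ≤ 4 * p / η ^ 2 := by rw [le_div_iff₀ h2]; linarith
  linarith

theorem rho2_pos {η : ℝ} (hη : η ≠ 0) (p : ℝ) : 0 < rho2 η p := by
  have h2 : 0 < η ^ 2 := by positivity
  unfold rho2
  rcases le_or_gt (4 * p / η ^ 2 + 2) 0 with h | h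
  · rw [Real.smoothTransition.zero_of_nonpos h, mul_zero, add_zero]; exact h2
  · have hp : -(η ^ 2) < 2 * p := by
      have : -2 < 4 * p / η ^ 2 := by linarith
      rw [lt_div_iff₀ h2] at this
      linarith
    have h0 := Real.smoothTransition.nonneg (4 * p / η ^ 2 + 2)
    have h1 := Real.smoothTransition.le_one (4 * p / η ^ 2 + 2)
    rcases le_total 0 p with hp0 | hp0
    · positivity
    · nlinarith [mul_le_mul_of_nonpos_left h1 (show 2 * p ≤ 0 by linarith)]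

theorem contDiff_rho2 (η : ℝ) : ContDiff ℝ 1 (rho2 η) := by
  unfold rho2
  exact contDiff_const.add ((contDiff_const.mul contDiff_id).mul
    (Real.smoothTransition.contDiff.comp (((contDiff_const.mul contDiff_id).div_const _).add
      contDiff_const)))

/-- The weight. -/
def weight (η : ℝ) (z : ℝ × ℝ) : ℝ :=
  (490 / rho2 η z.1 ^ 2 + 275 / rho2 η z.1 - 396 * z.2 ^ 2 / rho2 η z.1 ^ 3) / 550

theorem contDiff_weight {η : ℝ} (hη : η ≠ 0) : ContDiff ℝ 1 (weight η) := by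
  have hρ : ContDiff ℝ 1 fun z : ℝ × ℝ => rho2 η z.1 := (contDiff_rho2 η).comp contDiff_fst
  unfold weight
  exact (((contDiff_const.div (hρ.pow 2) fun z => (pow_pos (rho2_pos hη _) 2).ne').add
    (contDiff_const.div hρ fun z => (rho2_pos hη _).ne')).sub
    ((contDiff_const.mul (contDiff_snd.pow 2)).div (hρ.pow 3)
      fun z => (pow_pos (rho2_pos hη _) 3).ne')).div_const _

theorem weight_pos {η : ℝ} (hη : η ≠ 0) {p q : ℝ} (hp : 0 ≤ p) (hq : q ^ 2 ≤ 2 * p) :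
    0 < weight η (p, q) := by
  have h2 : 0 < η ^ 2 := by positivity
  obtain ⟨R, hR⟩ : ∃ R, R = η ^ 2 + 2 * p := ⟨_, rfl⟩
  have hR0 : 0 < R := by rw [hR]; positivity
  simp only [weight, rho2_of_gt hη (by linarith : -(η ^ 2 / 4) ≤ p), ← hR]
  refine div_pos ?_ (by norm_num)
  have e : 490 / R ^ 2 + 275 / R - 396 * q ^ 2 / R ^ 3 =
      (490 * R + 275 * R ^ 2 - 396 * q ^ 2) / R ^ 3 := by field_simp
  rw [e]
  refine div_pos ?_ (by positivity)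
  nlinarith

/-- The two partial derivatives of the weight for `p ≥ 0`. -/
theorem fderiv_weight {η : ℝ} (hη : η ≠ 0) {p : ℝ} (hp : 0 ≤ p) (q : ℝ) :
    Dir.wa (weight η) (p, q) =
      (-1960 / (η ^ 2 + 2 * p) ^ 3 - 550 / (η ^ 2 + 2 * p) ^ 2
        + 2376 * q ^ 2 / (η ^ 2 + 2 * p) ^ 4) / 550 ∧
    Dir.wb (weight η) (p, q) = -792 * q / (η ^ 2 + 2 * p) ^ 3 / 550 := by
  have h2 : 0 < η ^ 2 := by positivity
  have hd : HasFDerivAt (weight η) (fderiv ℝ (weight η) (p, q)) (p, q) :=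
    ((contDiff_weight hη).differentiable one_ne_zero _).hasFDerivAt
  have hR : η ^ 2 + 2 * p ≠ 0 := by positivity
  constructor
  · have h1 : HasDerivAt (fun t => weight η (t, q)) (Dir.wa (weight η) (p, q)) p :=
      hd.comp_hasDerivAt_of_eq p ((hasDerivAt_id p).prodMk (hasDerivAt_const p q)) rfl
    refine h1.unique ?_
    have hl : HasDerivAt (fun t : ℝ => η ^ 2 + 2 * t) 2 p := by
      simpa using ((hasDerivAt_id p).const_mul (2 : ℝ)).const_add (η ^ 2)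
    have hf : HasDerivAt (fun t : ℝ => (490 / (η ^ 2 + 2 * t) ^ 2 + 275 / (η ^ 2 + 2 * t)
        - 396 * q ^ 2 / (η ^ 2 + 2 * t) ^ 3) / 550) _ p :=
      ((((hasDerivAt_const p (490 : ℝ)).div (hl.pow 2) (pow_ne_zero 2 hR)).add
        ((hasDerivAt_const p (275 : ℝ)).div hl hR)).sub
        ((hasDerivAt_const p (396 * q ^ 2)).div (hl.pow 3) (pow_ne_zero 3 hR))).div_const 550
    refine (hf.congr_deriv ?_).congr_of_eventuallyEq ?_
    · simp only [Pi.pow_apply]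
      push_cast
      field_simp
      ring
    · filter_upwards [lt_mem_nhds (show -(η ^ 2 / 4) < p by linarith)] with t ht
      simp only [weight, rho2_of_gt hη ht.le]
  · have h1 : HasDerivAt (fun t => weight η (p, t)) (Dir.wb (weight η) (p, q)) q :=
      hd.comp_hasDerivAt_of_eq q ((hasDerivAt_const q p).prodMk (hasDerivAt_id q)) rfl
    refine h1.unique ?_
    simp only [weight, rho2_of_gt hη (by linarith : -(η ^ 2 / 4) ≤ p)]
    have hf : HasDerivAt (fun t : ℝ => (490 / (η ^ 2 + 2 * p) ^ 2 + 275 / (η ^ 2 + 2 * p)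
        - 396 * t ^ 2 / (η ^ 2 + 2 * p) ^ 3) / 550) _ q :=
      (((((hasDerivAt_pow 2 q).const_mul 396).div_const ((η ^ 2 + 2 * p) ^ 3)).const_sub
        (490 / (η ^ 2 + 2 * p) ^ 2 + 275 / (η ^ 2 + 2 * p))).div_const 550)
    refine hf.congr_deriv ?_
    push_cast
    ring

/-- The loss of the regularisation. -/
def loss (η ρ c d : ℝ) : ℝ :=
  if 1 / 2 ≤ ρ then 2772 * η ^ 2 / ρ ^ 5 * (|c| * max d 0) else 0

/-- The row integrand at `r = x ρ`, times `ρ ^ 4`. -/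
theorem kern_eval {η ρ x c d : ℝ} (hη : 0 < η) (hρ : 0 < ρ) (hx : 0 ≤ x)
    (hR : η ^ 2 + (x * ρ) ^ 2 = ρ ^ 2) :
    550 * Dir.kern 8 (((8 : ℕ) : ℝ) - 1) (weight η) ((x * ρ) ^ 2 / 2) (x * ρ * c) d * ρ ^ 4 =
      7 * (490 - 396 * c ^ 2 * x ^ 2 + 275 * ρ ^ 2)
        + (1 - d ^ 2) * (x ^ 2 * (-1960 + 2376 * c ^ 2 * x ^ 2 - 550 * ρ ^ 2) - 792 * c ^ 2 * x ^ 2)
        - 792 * (|c| * |d|) * x ^ 2 * (Real.sqrt (1 - d ^ 2) * Real.sqrt (1 - c ^ 2))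
        - 7 * ρ * max d 0 * x * (490 - 396 * c ^ 2 * x ^ 2 + 275 * ρ ^ 2) := by
  obtain ⟨r, hr⟩ : ∃ r, r = x * ρ := ⟨_, rfl⟩
  have hr0 : 0 ≤ r := by rw [hr]; positivity
  have hR' : η ^ 2 + 2 * (r ^ 2 / 2) = ρ ^ 2 := by rw [hr]; linarith
  rw [← hr]
  obtain ⟨wA, hwA⟩ := fderiv_weight hη.ne' (show 0 ≤ r ^ 2 / 2 by positivity) (r * c)
  rw [hR'] at wA hwA
  have hw : weight η (r ^ 2 / 2, r * c) =
      (490 / (ρ ^ 2) ^ 2 + 275 / ρ ^ 2 - 396 * (r * c) ^ 2 / (ρ ^ 2) ^ 3) / 550 := by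
    simp only [weight, rho2_of_gt hη.ne' (show -(η ^ 2 / 4) ≤ r ^ 2 / 2 by nlinarith), hR']
  have e2 : Real.sqrt (2 * (r ^ 2 / 2) - (r * c) ^ 2) = r * Real.sqrt (1 - c ^ 2) := by
    rw [show 2 * (r ^ 2 / 2) - (r * c) ^ 2 = r ^ 2 * (1 - c ^ 2) by ring,
      Real.sqrt_mul (sq_nonneg r), Real.sqrt_sq hr0]
  have e3 : Real.sqrt (2 * (r ^ 2 / 2)) = r := by
    rw [show 2 * (r ^ 2 / 2) = r ^ 2 by ring, Real.sqrt_sq hr0]
  have e4 : |Dir.wb (weight η) (r ^ 2 / 2, r * c)| = 792 * r * |c| / (ρ ^ 2) ^ 3 / 550 := by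
    rw [hwA, abs_div, abs_div, abs_of_pos (show (0 : ℝ) < 550 by norm_num),
      abs_of_pos (show (0 : ℝ) < (ρ ^ 2) ^ 3 by positivity), abs_mul, abs_mul, abs_of_nonneg hr0]
    norm_num
    ring
  simp only [Dir.kern, wA, hw, e2, e3, e4]
  rw [hwA, hr]
  push_cast
  field_simp
  ring

/-- The row integrand is at least the flat one at the regularised distance. -/
theorem kern_ge {η r c d : ℝ} (hη : 0 < η) (hr : 0 ≤ r) (hc : |c| ≤ 1) (hd : |d| ≤ 1) :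
    psi (Real.sqrt (r ^ 2 + η ^ 2)) |c| |d| - 550 - loss η (Real.sqrt (r ^ 2 + η ^ 2)) c d ≤
      550 * Dir.kern 8 (((8 : ℕ) : ℝ) - 1) (weight η) (r ^ 2 / 2) (r * c) d := by
  obtain ⟨ρ, hρ⟩ : ∃ ρ, ρ = Real.sqrt (r ^ 2 + η ^ 2) := ⟨_, rfl⟩
  have hρ0 : 0 < ρ := hρ ▸ Real.sqrt_pos.2 (by positivity)
  have hρ2 : ρ ^ 2 = r ^ 2 + η ^ 2 := hρ ▸ Real.sq_sqrt (by positivity)
  rw [← hρ]
  have hrρ : r ≤ ρ := hρ ▸ Real.le_sqrt_of_sq_le (by nlinarith)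
  obtain ⟨x, hx⟩ : ∃ x, x = r / ρ := ⟨_, rfl⟩
  have hrx : r = x * ρ := by rw [hx, div_mul_cancel₀ _ hρ0.ne']
  have hx0 : 0 ≤ x := hx ▸ div_nonneg hr hρ0.le
  have hx1 : x ≤ 1 := hx ▸ (div_le_one hρ0).2 hrρ
  have ev := kern_eval (c := c) (d := d) hη hρ0 hx0 (by rw [← hrx]; linarith)
  rw [← hrx] at ev
  have key := regular_bracket hρ0 hc hd (sq_nonneg x) (pow_le_one₀ hx0 hx1)
    (Real.sqrt_sq hx0).symm
  have hc2 : c ^ 2 ≤ 1 := by rw [← sq_abs]; exact pow_le_one₀ (abs_nonneg c) hc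
  have hd2 : d ^ 2 ≤ 1 := by rw [← sq_abs]; exact pow_le_one₀ (abs_nonneg d) hd
  have hsq : Real.sqrt (1 - d ^ 2) * Real.sqrt (1 - c ^ 2) ≤ (2 - c ^ 2 - d ^ 2) / 2 := by
    linarith [sq_nonneg (Real.sqrt (1 - d ^ 2) - Real.sqrt (1 - c ^ 2)),
      Real.sq_sqrt (sub_nonneg.2 hd2), Real.sq_sqrt (sub_nonneg.2 hc2)]
  have hcross := mul_le_mul_of_nonneg_left hsq
    (show 0 ≤ 792 * (|c| * |d|) * x ^ 2 by positivity)
  have hloss : (if 1 / 2 ≤ ρ then 2772 * (1 - x ^ 2) * ρ * (|c| * max d 0) else 0) =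
      loss η ρ c d * ρ ^ 4 := by
    unfold loss
    split_ifs
    · have : η ^ 2 = (1 - x ^ 2) * ρ ^ 2 := by rw [hrx] at hρ2; linarith
      rw [this]
      field_simp
    · simp
  have hlin : 7 * ρ * max d 0 * (wnum c + 275 * ρ ^ 2) ≤ 7 * ρ * |d| * (wnum c + 275 * ρ ^ 2) :=
    mul_le_mul_of_nonneg_right (mul_le_mul_of_nonneg_left (max_le (le_abs_self d) (abs_nonneg d))
      (by positivity)) (by unfold wnum; linarith [sq_nonneg ρ])
  have e5 : (psi ρ |c| |d| - 550) * ρ ^ 4 =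
      wnum c * (3 + 4 * d ^ 2) - 396 * (|c| * |d|) * (2 - c ^ 2 - d ^ 2)
        + 275 * (5 + 2 * d ^ 2) * ρ ^ 2 - 7 * ρ * |d| * (wnum c + 275 * ρ ^ 2) := by
    unfold psi wnum
    rw [sq_abs, sq_abs]
    field_simp
    ring
  rw [hloss] at key
  refine le_of_mul_le_mul_right ?_ (pow_pos hρ0 4)
  rw [sub_mul, e5, ev]
  linarith

theorem loss_le {η ρ c d : ℝ} (hη : 0 < η) (hη1 : η ≤ 1) (hρ : 0 < ρ) :
    loss η ρ c d ≤ 88704 * η * (|c| * |d|) := by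
  unfold loss
  have hm : max d 0 ≤ |d| := max_le (le_abs_self d) (abs_nonneg d)
  split_ifs with h
  · have h5 : (1 / 2 : ℝ) ^ 5 ≤ ρ ^ 5 := pow_le_pow_left₀ (by norm_num) h 5
    have h2 : 2772 * η ^ 2 / ρ ^ 5 ≤ 88704 * η := by
      rw [div_le_iff₀ (pow_pos hρ 5)]
      nlinarith [mul_le_mul_of_nonneg_left h5 (show 0 ≤ 88704 * η by positivity),
        mul_le_mul_of_nonneg_left hη1 hη.le]
    exact mul_le_mul h2 (mul_le_mul_of_nonneg_left hm (abs_nonneg c))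
      (by positivity) (by positivity)
  · positivity

/-- The symmetrised integrand is at least the flat one at the regularised distance. -/
theorem sym_ge {η r c d : ℝ} (hη : 0 < η) (hη1 : η ≤ 1) (hr : 0 ≤ r) (hc : |c| ≤ 1)
    (hd : |d| ≤ 1) :
    psi (Real.sqrt (r ^ 2 + η ^ 2)) |c| |d| + psi (Real.sqrt (r ^ 2 + η ^ 2)) |d| |c|
        - 177408 * η * (|c| * |d|) ≤ 550 * Gen.sym 8 (weight η) r c d := by
  have hρ : 0 < Real.sqrt (r ^ 2 + η ^ 2) := Real.sqrt_pos.2 (by positivity)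
  have h1 := kern_ge hη hr hc hd
  have h2 := kern_ge hη hr hd hc
  have h3 := loss_le (c := c) (d := d) hη hη1 hρ
  have h4 := loss_le (c := d) (d := c) hη hη1 hρ
  rw [Gen.sym]
  linarith

/-- The two clauses of the certificate at a small enough regularisation. -/
theorem weight_at {ε T η : ℝ} (hη0 : 0 < η) (hη1 : η ≤ 1) (hT : 0 < T)
    (hηC : η * (177408 * T ^ 7 + 177408 + 105840) ≤ 550 * ε) :
    (∀ r c d, r ∈ Icc 0 T → c ∈ Icc (-1 : ℝ) 1 → d ∈ Icc (-1 : ℝ) 1 →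
        -ε ≤ Gen.sym 8 (weight η) r c d) ∧
      ∀ r c d, r ∈ Ioc 0 T → c ∈ Ioc (0 : ℝ) 1 → d ∈ Ioc (0 : ℝ) 1 →
        aCoef c / 550 * d + aCoef d / 550 * c + 2 * (1764 / 55) * c * d * r - ε * (c * d) ≤
          r ^ (8 - 1) * Gen.sym 8 (weight η) r c d := by
  obtain ⟨C, hC⟩ : ∃ C, C = 177408 * T ^ 7 + 177408 + 105840 := ⟨_, rfl⟩
  rw [← hC] at hηC
  have hT7 : 0 ≤ T ^ 7 := by positivity
  refine ⟨?_, ?_⟩
  · intro r c d hr hc hd
    have hc1 : |c| ≤ 1 := abs_le.2 ⟨hc.1, hc.2⟩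
    have hd1 : |d| ≤ 1 := abs_le.2 ⟨hd.1, hd.2⟩
    obtain ⟨ρ, hρ⟩ : ∃ ρ, ρ = Real.sqrt (r ^ 2 + η ^ 2) := ⟨_, rfl⟩
    have hρ0 : 0 < ρ := hρ ▸ Real.sqrt_pos.2 (by positivity)
    have h := sym_ge hη0 hη1 hr.1 hc1 hd1
    rw [← hρ] at h
    have h0 : 0 ≤ psi ρ |c| |d| + psi ρ |d| |c| := by
      refine nonneg_of_mul_nonneg_right (a := ρ ^ 4) ?_ (by positivity)
      rw [psi_sym hρ0.ne']
      exact sym4_nonneg ρ (abs_nonneg c) hc1 (abs_nonneg d) hd1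
    have h1 : |c| * |d| ≤ 1 := mul_le_one₀ hc1 (abs_nonneg d) hd1
    have h2 := mul_le_mul_of_nonneg_left h1 (show 0 ≤ 177408 * η by positivity)
    have h3 : 177408 * η ≤ 550 * ε := le_trans (by rw [hC]; nlinarith) hηC
    linarith
  · intro r c d hr hc hd
    obtain ⟨ρ, hρ⟩ : ∃ ρ, ρ = Real.sqrt (r ^ 2 + η ^ 2) := ⟨_, rfl⟩
    have hρ0 : 0 < ρ := hρ ▸ Real.sqrt_pos.2 (by positivity)
    have hr0 : 0 ≤ r := hr.1.le
    have hrρ : r ≤ ρ := hρ ▸ Real.le_sqrt_of_sq_le (by nlinarith [sq_nonneg η])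
    have hηρ : η ≤ ρ := hρ ▸ Real.le_sqrt_of_sq_le (by nlinarith)
    have hρ2 : ρ ^ 2 = r ^ 2 + η ^ 2 := hρ ▸ Real.sq_sqrt (by positivity)
    have h := sym_ge hη0 hη1 hr0 (abs_le.2 ⟨by linarith [hc.1], hc.2⟩)
      (abs_le.2 ⟨by linarith [hd.1], hd.2⟩)
    rw [← hρ, abs_of_pos hc.1, abs_of_pos hd.1] at h
    have hl := line_regular hr0 hrρ hρ0 hc.1.le hc.2 hd.1.le hd.2
    obtain ⟨x, hx⟩ : ∃ x, x = r / ρ := ⟨_, rfl⟩
    have hx0 : 0 ≤ x := hx ▸ div_nonneg hr0 hρ0.le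
    have hx1 : x ≤ 1 := hx ▸ (div_le_one hρ0).2 hrρ
    rw [← hx] at hl
    have e : (1 - x ^ 2) * ρ ^ 2 = η ^ 2 := by rw [hx]; field_simp; linarith
    have hd3 : r * (1 - x ^ 6) ≤ 3 * η := by
      have h6 : 1 - x ^ 6 ≤ 3 * (1 - x ^ 2) := by
        have hx2 : x ^ 2 ≤ 1 := pow_le_one₀ hx0 hx1
        nlinarith [mul_nonneg (sub_nonneg.2 hx2) (sub_nonneg.2 hx2),
          mul_le_mul_of_nonneg_left hx2 (sq_nonneg x)]
      refine (mul_le_mul_of_nonneg_left h6 hr0).trans ?_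
      refine le_of_mul_le_mul_right ?_ (pow_pos hρ0 2)
      calc r * (3 * (1 - x ^ 2)) * ρ ^ 2 = 3 * (r * η) * η := by linear_combination 3 * r * e
        _ ≤ 3 * (ρ * ρ) * η := mul_le_mul_of_nonneg_right (mul_le_mul_of_nonneg_left
            (mul_le_mul hrρ hηρ hη0.le hρ0.le) (by norm_num)) hη0.le
        _ = _ := by ring
    obtain ⟨S, hS⟩ : ∃ S, S = Gen.sym 8 (weight η) r c d := ⟨_, rfl⟩
    rw [← hS] at h ⊢
    have h7 := mul_le_mul_of_nonneg_left h (pow_nonneg hr0 7)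
    have hcd : 0 ≤ c * d := mul_nonneg hc.1.le hd.1.le
    have hrT := mul_le_mul_of_nonneg_right (pow_le_pow_left₀ hr0 hr.2 7)
      (show 0 ≤ 177408 * η * (c * d) by positivity)
    have hd4 := mul_le_mul_of_nonneg_left hd3 (show 0 ≤ 35280 * (c * d) by positivity)
    have hC' := mul_le_mul_of_nonneg_right hηC hcd
    rw [hC] at hC'
    have h0 : 0 ≤ η * (c * d) := mul_nonneg hη0.le hcd
    show _ ≤ r ^ 7 * S
    linarith

/-- The two clauses of the certificate for the weight. -/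
theorem weight_cert {ε T : ℝ} (hε : 0 < ε) (hT : 0 < T) :
    ∃ w : ℝ × ℝ → ℝ, ContDiff ℝ 1 w ∧ (∀ p q, 0 ≤ p → q ^ 2 ≤ 2 * p → 0 < w (p, q)) ∧
      (∀ r c d, r ∈ Icc 0 T → c ∈ Icc (-1 : ℝ) 1 → d ∈ Icc (-1 : ℝ) 1 →
        -ε ≤ Gen.sym 8 w r c d) ∧
      ∀ r c d, r ∈ Ioc 0 T → c ∈ Ioc (0 : ℝ) 1 → d ∈ Ioc (0 : ℝ) 1 →
        aCoef c / 550 * d + aCoef d / 550 * c + 2 * (1764 / 55) * c * d * r - ε * (c * d) ≤
          r ^ (8 - 1) * Gen.sym 8 w r c d := by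
  obtain ⟨C, hC⟩ : ∃ C, C = 177408 * T ^ 7 + 177408 + 105840 := ⟨_, rfl⟩
  have hC0 : 0 < C := by rw [hC]; positivity
  have hη0 : 0 < min 1 (550 * ε / C) := lt_min one_pos (by positivity)
  obtain ⟨h1, h2⟩ := weight_at (ε := ε) hη0 (min_le_left _ _) hT
    (hC ▸ (le_div_iff₀ hC0).1 (min_le_right _ _))
  exact ⟨_, contDiff_weight hη0.ne', fun p q hp hq => weight_pos hη0.ne' hp hq, h1, h2⟩

end Vale.Agent.P219.CH.Eight
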